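import Crest.Agent.N337.Free.Tor

/-!
# Row 337, Free (helper46): the lazy random walk on the torus and its heat kernel bounds
-/

set_option autoImplicit false
set_option linter.unusedSectionVars false

namespace Crest.Agent.N337.Free

open Finset Crest.MathPhysics.SpinModel

/-! ### elementary sums -/

/-- `(m + 1) ^ (-1/2)` -/
noncomputable def rho (m : ℕ) : ℝ := (√((m : ℝ) + 1))⁻¹

theorem rho_pos (m : ℕ) : 0 < rho m := by unfold rho; positivity

theorem rho_sq (m : ℕ) : ((m : ℝ) + 1) * rho m ^ 2 = 1 := by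
  rw [rho, inv_pow, Real.sq_sqrt (by positivity), mul_inv_cancel₀ (by positivity)]

theorem rho_anti {m m' : ℕ} (h : m ≤ m') : rho m' ≤ rho m := by
  unfold rho
  have : (m : ℝ) ≤ m' := Nat.cast_le.2 h
  gcongr

theorem rho_le_one (m : ℕ) : rho m ≤ 1 := by simpa [rho] using rho_anti (Nat.zero_le m)

theorem rho_half {m m' : ℕ} (h : m ≤ 2 * m' + 1) : rho m' ≤ 2 * rho m := by
  have h1 : (m : ℝ) ≤ 2 * m' + 1 := by exact_mod_cast h
  refine le_of_sq_le_sq₀' ?_
  have := rho_sq m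
  have := rho_sq m'
  have := rho_pos m
  have := rho_pos m'
  have : (0 : ℝ) ≤ m' := Nat.cast_nonneg _
  nlinarith [sq_nonneg (rho m), sq_nonneg (rho m')]
where le_of_sq_le_sq₀' (h : rho m' ^ 2 ≤ (2 * rho m) ^ 2) : rho m' ≤ 2 * rho m :=
  (abs_le_of_sq_le_sq' h (by linarith [rho_pos m])).2

theorem sum_rho_le (N : ℕ) : ∑ i ∈ range N, rho i ≤ 2 * √(N : ℝ) := by
  induction N with
  | zero => simp
  | succ N ih =>
    rw [sum_range_succ, Nat.cast_succ, rho]
    have h1 : 0 < √((N : ℝ) + 1) := by positivity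
    have h2 := Real.sq_sqrt (show (0 : ℝ) ≤ N + 1 by positivity)
    have h3 := Real.sq_sqrt (Nat.cast_nonneg (α := ℝ) N)
    have : (√((N : ℝ) + 1))⁻¹ ≤ 2 * √((N : ℝ) + 1) - 2 * √(N : ℝ) := by
      rw [inv_le_iff_one_le_mul₀ h1]
      nlinarith [sq_nonneg (√((N : ℝ) + 1) - √(N : ℝ))]
    linarith

theorem sum_rho_cube_le (N M : ℕ) :
    ∑ i ∈ range M, rho (N + i) ^ 3 ≤ 6 * rho N - 6 * rho (N + M) := by
  induction M with
  | zero => simp
  | succ M ih =>
    rw [sum_range_succ, ← add_assoc]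
    have h1 := rho_sq (N + M)
    have h2 := rho_sq (N + M + 1)
    have h3 := rho_pos (N + M)
    have h4 := rho_pos (N + M + 1)
    have h5 := rho_anti (Nat.le_succ (N + M))
    have h6 : (0 : ℝ) ≤ (N + M : ℕ) := Nat.cast_nonneg _
    rw [Nat.cast_succ] at h2
    generalize ((N + M : ℕ) : ℝ) = t at *
    generalize rho (N + M) = a at *
    generalize rho (N + M + 1) = b at *
    have h7 : a ^ 2 - b ^ 2 = a ^ 2 * b ^ 2 := by
      linear_combination (-(a ^ 2)) * h2 + b ^ 2 * h1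
    have h8 : a ^ 2 ≤ 2 * b ^ 2 := by nlinarith [sq_nonneg a, sq_nonneg b]
    have : a ^ 3 ≤ 6 * a - 6 * b := by
      by_contra hc
      push Not at hc
      nlinarith [mul_pos h3 h4, mul_pos h3 h3, mul_pos (mul_pos h3 h3) (mul_pos h3 h3)]
    linarith

theorem sum_min_le {η : ℝ} (hη : 0 < η) (M : ℕ) :
    ∑ i ∈ range M, min (rho i ^ 3) (η * rho i) ≤ 8 * √η := by
  set N := ⌊η⁻¹⌋₊
  have h1 : (N : ℝ) ≤ η⁻¹ := Nat.floor_le (by positivity)
  have h2 : η⁻¹ < N + 1 := Nat.lt_floor_add_one _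
  have hs : 0 < √η := Real.sqrt_pos.2 hη
  have h3 : η * √(N : ℝ) ≤ √η := by
    have := Real.sqrt_le_sqrt h1
    rw [Real.sqrt_inv] at this
    calc η * √(N : ℝ) ≤ η * (√η)⁻¹ := by gcongr
      _ = √η := by rw [← div_eq_mul_inv, Real.div_sqrt]
  have h4 : rho N ≤ √η := by
    have := Real.sqrt_le_sqrt h2.le
    rw [Real.sqrt_inv] at this
    exact inv_le_of_inv_le₀ hs this
  calc _ ≤ ∑ i ∈ range (N + M), min (rho i ^ 3) (η * rho i) :=
        sum_le_sum_of_subset_of_nonneg (range_subset_range.2 (Nat.le_add_left _ _)) fun i _ _ => by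
          have := rho_pos i
          positivity
    _ ≤ ∑ i ∈ range N, η * rho i + ∑ i ∈ range M, rho (N + i) ^ 3 := by
        rw [sum_range_add]
        exact add_le_add (sum_le_sum fun i _ => min_le_right _ _)
          (sum_le_sum fun i _ => min_le_left _ _)
    _ ≤ _ := by
        rw [← Finset.mul_sum]
        have := mul_le_mul_of_nonneg_left (sum_rho_le N) hη.le
        have := sum_rho_cube_le N M
        have := rho_pos (N + M)
        nlinarith

theorem sum_lor_le {a : ℝ} (ha : 0 < a) (N : ℕ) :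
    ∑ i ∈ range N, 1 / (1 + a ^ 2 * ((i : ℝ) + 1) ^ 2) ≤ 2 / a - 2 / (a * (1 + a * N)) := by
  induction N with
  | zero => simp
  | succ N ih =>
    rw [sum_range_succ, Nat.cast_succ]
    have hN : (0 : ℝ) ≤ N := Nat.cast_nonneg _
    have : 1 / (1 + a ^ 2 * ((N : ℝ) + 1) ^ 2) ≤
        2 / (a * (1 + a * N)) - 2 / (a * (1 + a * (N + 1))) := by
      have e : 2 / (a * (1 + a * N)) - 2 / (a * (1 + a * (N + 1))) =
          2 / ((1 + a * N) * (1 + a * (N + 1))) := by field_simp; ring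
      rw [e, div_le_div_iff₀ (by positivity) (by positivity)]
      nlinarith [sq_nonneg (1 - a * (N + 1)), mul_nonneg ha.le hN]
    linarith

theorem sum_zmod_le {L : ℕ} [NeZero L] {a : ℝ} (ha : 0 < a) :
    ∑ j : ZMod L, 1 / (1 + a ^ 2 * (j.valMinAbs : ℝ) ^ 2) ≤ 1 + 4 / a := by
  set g : ℕ → ℝ := fun i => 1 / (1 + a ^ 2 * (i : ℝ) ^ 2) with hg
  have g0 : ∀ i, 0 ≤ g i := fun i => by positivity
  have h1 : ∀ j : ZMod L, 1 / (1 + a ^ 2 * (j.valMinAbs : ℝ) ^ 2) ≤
      g j.val + g (L - 1 - j.val + 1) := fun j => by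
    have hj := ZMod.val_lt j
    rw [ZMod.valMinAbs_def_pos]
    split_ifs
    · exact le_add_of_le_of_nonneg (by simp [hg]) (g0 _)
    · refine le_add_of_nonneg_of_le (g0 _) (le_of_eq ?_)
      rw [show L - 1 - j.val + 1 = L - j.val by omega]
      simp only [hg, Nat.cast_sub hj.le]
      push_cast
      ring_nf
  have h2 : ∀ f : ℕ → ℝ, ∑ j : ZMod L, f j.val = ∑ i ∈ range L, f i := fun f =>
    Finset.sum_bij (fun j _ => j.val) (fun j _ => mem_range.2 (ZMod.val_lt j))
      (fun _ _ _ _ h => ZMod.val_injective _ h)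
      (fun i hi => ⟨(i : ZMod L), mem_univ _, ZMod.val_cast_of_lt (mem_range.1 hi)⟩) fun _ _ => rfl
  refine (sum_le_sum fun j _ => h1 j).trans ?_
  rw [sum_add_distrib, h2 g, h2 fun i => g (L - 1 - i + 1), sum_range_reflect (fun i => g (i + 1))]
  have h3 : ∑ i ∈ range L, g (i + 1) ≤ 2 / a := by
    have := sum_lor_le ha L
    have h0 : 0 ≤ 2 / (a * (1 + a * L)) := by positivity
    simp only [hg, Nat.cast_succ]
    linarith
  have h4 : ∑ i ∈ range L, g i ≤ ∑ i ∈ range L, g (i + 1) + g 0 := by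
    rw [← sum_range_succ', sum_range_succ]
    linarith [g0 L]
  have h5 : g 0 = 1 := by simp [hg]
  have : 4 / a = 2 / a + 2 / a := by ring
  linarith

/-! ### the walk -/

variable {d L : ℕ} {J : (Fin d → ℤ) → ℝ} (hJ : Coup J) (n : ℕ)

/-- the total jump rate -/
noncomputable def lam : ℝ := 2 * (spinVal n * ∑ z ∈ sp hJ, J z) + 1

theorem rate_nonneg : 0 ≤ spinVal n * ∑ z ∈ sp hJ, J z :=
  mul_nonneg (by unfold spinVal; positivity) (sum_nonneg fun z _ => hJ.nonneg z)

theorem one_le_lam : 1 ≤ lam hJ n := by unfold lam; linarith [rate_nonneg hJ n]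

theorem lam_pos : 0 < lam hJ n := by linarith [one_le_lam hJ n]

/-- the eigenvalues of the walk -/
noncomputable def uu (k : Tor d L) : ℝ := 1 - epsT n J k / lam hJ n

theorem eps_div_le (k : Tor d L) : epsT n J k / lam hJ n ≤ 1 := by
  rw [div_le_one (lam_pos hJ n), lam]
  linarith [eps_le hJ n (mom k), show epsT n J k = eps n J (mom k) from rfl]

theorem uu_nonneg (k : Tor d L) : 0 ≤ uu hJ n k := sub_nonneg.2 (eps_div_le hJ n k)


/-- one step of the walk -/
noncomputable def Pw (g : Tor d L → ℝ) (x : Tor d L) : ℝ :=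
  g x - spinVal n / lam hJ n * ∑ z ∈ sp hJ, J z * (g x - g (x + tcast L z))

theorem Pw_nonneg {g : Tor d L → ℝ} (hg : ∀ x, 0 ≤ g x) (x : Tor d L) : 0 ≤ Pw hJ n g x := by
  have hl := lam_pos hJ n
  have hS : 0 ≤ spinVal n := by unfold spinVal; positivity
  have h1 : ∑ z ∈ sp hJ, J z * (g x - g (x + tcast L z)) ≤ (∑ z ∈ sp hJ, J z) * g x := by
    rw [Finset.sum_mul]
    exact sum_le_sum fun z _ => mul_le_mul_of_nonneg_left (sub_le_self _ (hg _)) (hJ.nonneg z)
  have h2 := mul_le_mul_of_nonneg_left h1 hS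
  rw [Pw, sub_nonneg, div_mul_eq_mul_div, div_le_iff₀ hl, lam]
  nlinarith [mul_nonneg (rate_nonneg hJ n) (hg x), hg x]

variable [NeZero L]

theorem Pw_re_chi (k x : Tor d L) :
    Pw hJ n (fun y => (chi k y).re) x = uu hJ n k * (chi k x).re := by
  have h := congrArg Complex.re (lap_chi hJ n k x)
  rw [sum_torJ hJ x fun y => chi k x - chi k y] at h
  simp only [Complex.re_ofReal_mul, Complex.re_sum, Complex.sub_re] at h
  rw [Pw, uu, div_mul_eq_mul_div, h]
  ring

theorem Pw_sum {ι : Type} [Fintype ι] (c : ι → ℝ) (g : ι → Tor d L → ℝ) (x : Tor d L) :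
    Pw hJ n (fun y => ∑ i, c i * g i y) x = ∑ i, c i * Pw hJ n (g i) x := by
  simp only [Pw, mul_sub, sum_sub_distrib, Finset.mul_sum]
  rw [sum_comm (s := sp hJ), sum_comm (s := sp hJ)]
  congr 2 <;> exact sum_congr rfl fun i _ => sum_congr rfl fun z _ => by ring

theorem Pw_ker (f : Tor d L → ℝ) (x : Tor d L) :
    Pw hJ n (ker f) x = ker (fun k => uu hJ n k * f k) x := by
  have h : ker f = fun y => ∑ k, f k / (L : ℝ) ^ d * (chi k y).re := by
    funext y
    rw [ker, Finset.sum_div]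
    exact sum_congr rfl fun k _ => by ring
  rw [h, Pw_sum, ker, Finset.sum_div]
  exact sum_congr rfl fun k _ => by rw [Pw_re_chi]; ring

/-- the transition probabilities -/
noncomputable def qq (m : ℕ) : Tor d L → ℝ := ker fun k => uu hJ n k ^ m

theorem qq_succ (m : ℕ) (x : Tor d L) : qq hJ n (m + 1) x = Pw hJ n (qq hJ n m) x := by
  simp only [qq, Pw_ker, pow_succ']

theorem qq_zero (x : Tor d L) : qq hJ n 0 x = if x = 0 then 1 else 0 := by
  simp only [qq, pow_zero, ker_one]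

theorem qq_nonneg (m : ℕ) (x : Tor d L) : 0 ≤ qq hJ n m x := by
  induction m generalizing x with
  | zero => rw [qq_zero]; split_ifs <;> simp
  | succ m ih => rw [qq_succ]; exact Pw_nonneg hJ n ih x

theorem sum_qq (m : ℕ) : ∑ x : Tor d L, qq hJ n m x = 1 := by
  simp [qq, sum_ker, uu, epsT_zero hJ]

theorem qq_add (m m' : ℕ) (x : Tor d L) :
    qq hJ n (m + m') x = ∑ y, qq hJ n m y * qq hJ n m' (x - y) := by
  induction m' generalizing x with
  | zero => simp [qq_zero, sub_eq_zero]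
  | succ m' ih =>
    rw [← add_assoc, qq_succ, show qq hJ n (m + m') = _ from funext ih,
      Pw_sum hJ n _ fun y x => qq hJ n m' (x - y)]
    refine sum_congr rfl fun y _ => ?_
    simp only [qq_succ, Pw, add_sub_right_comm]

theorem sum_ker_mul_re_chi (f : Tor d L → ℝ) (k : Tor d L) :
    ∑ y, ker f y * (chi k y).re = (f k + f (-k)) / 2 := by
  have h : ∀ l : Tor d L, ∑ y, (chi l y).re * (chi k y).re =
      ((if l = k then (L : ℝ) ^ d else 0) + if l = -k then (L : ℝ) ^ d else 0) / 2 := by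
    intro l
    have e : ∀ y, (chi l y).re * (chi k y).re = ((chi (l - k) y).re + (chi (l + k) y).re) / 2 :=
      fun y => by
        rw [sub_eq_add_neg, chi_add_left, chi_add_left, chi_neg_left]
        simp
    simp only [e]
    rw [← Finset.sum_div, sum_add_distrib, ← Complex.re_sum, ← Complex.re_sum, sum_chi', sum_chi']
    simp only [sub_eq_zero, add_eq_zero_iff_eq_neg]
    congr 2 <;> split_ifs <;> norm_cast
  simp only [ker, div_mul_eq_mul_div, Finset.sum_mul, mul_assoc]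
  rw [← Finset.sum_div, sum_comm]
  simp only [← Finset.mul_sum, h, mul_div_assoc', mul_add, mul_ite, mul_zero]
  rw [← Finset.sum_div, sum_add_distrib, Finset.sum_ite_eq', Finset.sum_ite_eq']
  have := (vol_pos (d := d) (L := L)).ne'
  simp only [mem_univ, if_true]
  field_simp

include hJ in
theorem epsT_neg (k : Tor d L) : epsT n J (-k) = epsT n J k := by
  have h1 := congrArg Complex.re (lap_chi hJ n k 0)
  have h2 := congrArg Complex.re (lap_chi hJ n (-k) 0)
  simp only [chi_neg_left, Complex.re_ofReal_mul, Complex.re_sum, Complex.sub_re,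
    Complex.conj_re, chi_zero, Complex.one_re, mul_one, Complex.ofReal_re] at h1 h2
  rw [← h1, ← h2]

omit [NeZero L] in
/-- second moment -/
theorem exists_moment : ∃ C : ℝ, 0 ≤ C ∧ ∀ (L : ℕ) [NeZero L] (m : ℕ),
    ∑ y : Tor d L, qq hJ n m y * (tdist 0 y : ℝ) ^ 2 ≤ C * m := by
  obtain ⟨C, hC, hup⟩ := eps_upper hJ n
  refine ⟨d * (8 * C), by positivity, fun L _ m => ?_⟩
  have hL : (0 : ℝ) < L := Nat.cast_pos.2 (NeZero.pos L)
  have key : ∀ a, ∑ y : Tor d L, qq hJ n m y * ((y a).valMinAbs : ℝ) ^ 2 ≤ 8 * C * m := by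
    intro a
    set k : Tor d L := tcast L (Pi.single a 1) with hk
    have h1 : ∀ y : Tor d L, 8 * ((y a).valMinAbs : ℝ) ^ 2 / L ^ 2 ≤ 1 - (chi k y).re := by
      intro y
      rw [chi_comm, hk, re_chi_tcast]
      have e : ∑ b, mom y b * ((Pi.single a 1 : Fin d → ℤ) b : ℝ) = mom y a := by
        simp [Pi.single_apply]
      have e2 : 2 / Real.pi ^ 2 * mom y a ^ 2 = 8 * ((y a).valMinAbs : ℝ) ^ 2 / L ^ 2 := by
        rw [mom]; field_simp; ring
      rw [e, ← e2]
      linarith [Real.cos_le_one_sub_mul_cos_sq (abs_mom_le y a)]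
    have h2 : epsT n J k ≤ C * (64 / L ^ 2) := by
      have e : mom k = Pi.single a (mom k a) := by
        funext b
        by_cases hb : b = a
        · subst hb; simp
        · simp [hk, mom, tcast, hb]
      have h3 : (k a).valMinAbs.natAbs ≤ 1 :=
        ZMod.natAbs_min_of_le_div_two L _ 1 (by simp [hk, tcast]) (ZMod.natAbs_valMinAbs_le _)
      have h4 : ((k a).valMinAbs : ℝ) ^ 2 ≤ 1 := by
        have : (k a).valMinAbs ^ 2 ≤ 1 := by
          simpa using (Int.natAbs_le_iff_sq_le (a := (k a).valMinAbs) (b := 1)).1 h3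
        exact_mod_cast this
      rw [epsT, e]
      refine (hup a _).trans (mul_le_mul_of_nonneg_left ?_ hC)
      rw [mom, div_pow, mul_pow]
      refine div_le_div_of_nonneg_right ?_ (by positivity)
      nlinarith [Real.pi_le_four, Real.pi_pos, sq_nonneg ((k a).valMinAbs : ℝ)]
    have h3 : 1 - m * epsT n J k ≤ uu hJ n k ^ m := by
      have h4 := one_add_mul_le_pow (a := -(epsT n J k / lam hJ n))
        (by linarith [eps_div_le hJ n k]) m
      have h5 : epsT n J k / lam hJ n ≤ epsT n J k :=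
        div_le_self (eps_nonneg hJ n _) (one_le_lam hJ n)
      have := mul_le_mul_of_nonneg_left h5 (Nat.cast_nonneg (α := ℝ) m)
      rw [uu, sub_eq_add_neg 1 (_ / _)]
      linarith
    have h4 : ∑ y : Tor d L, qq hJ n m y * (1 - (chi k y).re) = 1 - uu hJ n k ^ m := by
      simp only [mul_sub, mul_one, sum_sub_distrib, sum_qq]
      rw [qq, sum_ker_mul_re_chi]
      simp only [uu, epsT_neg hJ]
      ring
    have h5 : ∑ y : Tor d L, qq hJ n m y * (8 * ((y a).valMinAbs : ℝ) ^ 2 / L ^ 2) ≤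
        m * (C * (64 / L ^ 2)) := by
      refine (sum_le_sum fun y _ => mul_le_mul_of_nonneg_left (h1 y) (qq_nonneg hJ n m y)).trans ?_
      have := mul_le_mul_of_nonneg_left h2 (Nat.cast_nonneg (α := ℝ) m)
      linarith
    have h6 : ∑ y : Tor d L, qq hJ n m y * (8 * ((y a).valMinAbs : ℝ) ^ 2 / L ^ 2) =
        8 / L ^ 2 * ∑ y : Tor d L, qq hJ n m y * ((y a).valMinAbs : ℝ) ^ 2 := by
      rw [Finset.mul_sum]; exact sum_congr rfl fun y _ => by ring
    rw [h6, show (m : ℝ) * (C * (64 / L ^ 2)) = 8 / L ^ 2 * (8 * C * m) by ring] at h5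
    exact le_of_mul_le_mul_left h5 (by positivity)
  have h1 : ∀ y : Tor d L, (tdist 0 y : ℝ) ^ 2 ≤ ∑ a, ((y a).valMinAbs : ℝ) ^ 2 := by
    intro y
    rcases (univ : Finset (Fin d)).eq_empty_or_nonempty with h | h
    · simp [tdist, h]
    · obtain ⟨a, -, ha⟩ := Finset.exists_mem_eq_sup _ h
        fun a : Fin d => ((y a - (0 : Tor d L) a).valMinAbs).natAbs
      rw [tdist, ha]
      refine le_trans (le_of_eq ?_) (single_le_sum (f := fun a => ((y a).valMinAbs : ℝ) ^ 2)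
        (fun _ _ => sq_nonneg _) (mem_univ a))
      simp
  calc _ ≤ ∑ y : Tor d L, ∑ a, qq hJ n m y * ((y a).valMinAbs : ℝ) ^ 2 :=
        sum_le_sum fun y _ => by
          rw [← Finset.mul_sum]; exact mul_le_mul_of_nonneg_left (h1 y) (qq_nonneg hJ n m y)
    _ ≤ ∑ _a : Fin d, 8 * C * m := by rw [sum_comm]; exact sum_le_sum fun a _ => key a
    _ = _ := by simp; ring

omit [NeZero L] in
/-- on-diagonal bound -/
theorem exists_diag (hd : 3 ≤ d) (hn : 1 ≤ n) : ∃ C : ℝ, 0 ≤ C ∧ ∀ (L : ℕ) [NeZero L] (m : ℕ)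
    (x : Tor d L), qq hJ n m x ≤ C / (L : ℝ) ^ d + C * rho m ^ 3 := by
  obtain ⟨c, hc, hlow⟩ := eps_lower hJ hn
  have hl := lam_pos hJ n
  set b : ℝ := √(c / lam hJ n) with hb
  have hb0 : 0 < b := by positivity
  have hb2 : b ^ 2 = c / lam hJ n := Real.sq_sqrt (by positivity)
  refine ⟨3 * 2 ^ (d - 1) * (1 + (4 / b) ^ d), by positivity, fun L _ m x => ?_⟩
  have hL : (0 : ℝ) < L := Nat.cast_pos.2 (NeZero.pos L)
  have hr := rho_pos m
  set a : ℝ := b / (rho m * L) with ha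
  have ha0 : 0 < a := by positivity
  have h1 : ∀ k : Tor d L, uu hJ n k ^ m ≤
      3 * ∏ i, 1 / (1 + a ^ 2 * ((k i).valMinAbs : ℝ) ^ 2) := by
    intro k
    have e1 : uu hJ n k ^ m ≤ Real.exp (-(epsT n J k / lam hJ n)) ^ m :=
      pow_le_pow_left₀ (uu_nonneg hJ n k) (Real.one_sub_le_exp_neg _) m
    have e2 : ∑ i, a ^ 2 * ((k i).valMinAbs : ℝ) ^ 2 ≤ (m + 1) * (epsT n J k / lam hJ n) := by
      have e3 := hlow (mom k) (abs_mom_le k)
      have e4 : ∑ i, a ^ 2 * ((k i).valMinAbs : ℝ) ^ 2 ≤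
          (m + 1) * (c * (∑ i, mom k i ^ 2) / lam hJ n) := by
        rw [Finset.mul_sum, Finset.sum_div, Finset.mul_sum]
        refine sum_le_sum fun i _ => ?_
        have e5 : a ^ 2 = (m + 1) * (c / lam hJ n) / L ^ 2 := by
          rw [ha, div_pow, mul_pow, hb2, eq_div_iff (by positivity)]
          field_simp
          linarith [rho_sq m]
        have e6 : ((k i).valMinAbs : ℝ) ^ 2 / L ^ 2 ≤ mom k i ^ 2 := by
          rw [mom, div_pow, mul_pow]
          refine div_le_div_of_nonneg_right (le_mul_of_one_le_left (sq_nonneg _) ?_) (by positivity)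
          nlinarith [Real.two_le_pi]
        calc _ = (m + 1) * (c * (((k i).valMinAbs : ℝ) ^ 2 / L ^ 2) / lam hJ n) := by
              rw [e5]; ring
          _ ≤ _ := by gcongr
      refine e4.trans ?_
      gcongr
      exact e3
    calc uu hJ n k ^ m ≤ Real.exp (1 + -∑ i, a ^ 2 * ((k i).valMinAbs : ℝ) ^ 2) := by
          rw [← Real.exp_nat_mul] at e1
          refine e1.trans (Real.exp_le_exp.2 ?_)
          linarith [eps_div_le hJ n k]
      _ ≤ _ := by
          rw [Real.exp_add, ← sum_neg_distrib, Real.exp_sum]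
          refine mul_le_mul (by linarith [Real.exp_one_lt_d9]) (prod_le_prod
            (fun _ _ => (Real.exp_pos _).le) fun i _ => ?_) (by positivity) (by norm_num)
          rw [Real.exp_neg, one_div]
          exact inv_anti₀ (by positivity) (by rw [add_comm]; exact Real.add_one_le_exp _)
  have h2 : ∑ k : Tor d L, ∏ i, 1 / (1 + a ^ 2 * ((k i).valMinAbs : ℝ) ^ 2) ≤ (1 + 4 / a) ^ d := by
    have h := Finset.prod_univ_sum (fun _ : Fin d => (univ : Finset (ZMod L)))
      fun _ j => 1 / (1 + a ^ 2 * (j.valMinAbs : ℝ) ^ 2)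
    rw [Fintype.piFinset_univ] at h
    rw [← h, prod_const, card_univ, Fintype.card_fin]
    exact pow_le_pow_left₀ (by positivity) (sum_zmod_le ha0) d
  have h3 : qq hJ n m x ≤ 3 * (1 / L + 4 / b * rho m) ^ d := by
    refine (ker_le_zero (fun k => pow_nonneg (uu_nonneg hJ n k) m) x).trans ?_
    have e : 1 / (L : ℝ) + 4 / b * rho m = (1 + 4 / a) / L := by rw [ha]; field_simp
    rw [e, div_pow, ← mul_div_assoc, ker]
    refine div_le_div_of_nonneg_right ?_ vol_pos.le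
    simp only [chi_zero, Complex.one_re, mul_one]
    refine (sum_le_sum fun k _ => h1 k).trans ?_
    rw [← Finset.mul_sum]
    linarith
  have h4 := add_pow_le (a := 1 / (L : ℝ)) (b := 4 / b * rho m) (by positivity) (by positivity) d
  have h5 : rho m ^ d ≤ rho m ^ 3 := pow_le_pow_of_le_one hr.le (rho_le_one m) hd
  rw [mul_pow, div_pow, one_pow] at h4
  have h6 : (0 : ℝ) ≤ (4 / b) ^ d := by positivity
  have h7 : (0 : ℝ) ≤ 1 / (L : ℝ) ^ d := by positivity
  have h8 : 1 / (L : ℝ) ^ d + (4 / b) ^ d * rho m ^ d ≤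
      (1 + (4 / b) ^ d) * (1 / (L : ℝ) ^ d + rho m ^ 3) := by
    nlinarith [mul_le_mul_of_nonneg_left h5 h6, mul_nonneg h6 h7, pow_pos hr 3]
  calc _ ≤ 3 * (2 ^ (d - 1) * ((1 + (4 / b) ^ d) * (1 / (L : ℝ) ^ d + rho m ^ 3))) := by
        refine h3.trans (mul_le_mul_of_nonneg_left (h4.trans ?_) (by norm_num))
        gcongr
    _ = _ := by ring

omit [NeZero L] in
/-- off-diagonal bound -/
theorem exists_heat (hd : 3 ≤ d) (hn : 1 ≤ n) : ∃ C : ℝ, 0 ≤ C ∧ ∀ (L : ℕ) [NeZero L] (m : ℕ)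
    (x : Tor d L), qq hJ n m x ≤ C / (L : ℝ) ^ d +
      C * min (rho m ^ 3) (1 / max 1 (tdist 0 x : ℝ) ^ 2 * rho m) := by
  obtain ⟨C, hC, h1⟩ := exists_diag hJ n hd hn
  obtain ⟨D, hD, h2⟩ := exists_moment hJ n
  refine ⟨C + 16 * C * D, by positivity, fun L _ m x => ?_⟩
  have hr := rho_pos m
  have hV : (0 : ℝ) < (L : ℝ) ^ d := vol_pos
  have hm : (0 : ℝ) ≤ m := Nat.cast_nonneg _
  have hCD := mul_nonneg hC hD
  set r : ℝ := (tdist 0 x : ℝ) with hrd
  rcases le_total (rho m ^ 3) (1 / max 1 r ^ 2 * rho m) with h | h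
  · rw [min_eq_left h]
    refine (h1 L m x).trans (add_le_add ?_ ?_) <;> gcongr <;> linarith
  rw [min_eq_right h]
  have hR : 1 ≤ max 1 r := le_max_left _ _
  have h3 : (m : ℝ) + 1 ≤ max 1 r ^ 2 := by
    rw [div_mul_eq_mul_div, div_le_iff₀ (by positivity)] at h
    have h0 : 1 ≤ rho m ^ 2 * max 1 r ^ 2 := le_of_mul_le_mul_left (by linarith) hr
    have := mul_le_mul_of_nonneg_left h0 (show (0 : ℝ) ≤ m + 1 by positivity)
    rwa [← mul_assoc, rho_sq, one_mul, mul_one] at this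
  rcases le_total r 1 with hr1 | hr1
  · rw [max_eq_left hr1] at h3 ⊢
    have hm0 : m = 0 := by
      have : (m : ℝ) = 0 := by linarith
      exact_mod_cast this
    refine (h1 L m x).trans (add_le_add (by gcongr; linarith) ?_)
    simp only [hm0, rho, Nat.cast_zero, zero_add, Real.sqrt_one, inv_one, one_pow, div_one, mul_one]
    linarith
  rw [max_eq_right hr1] at h3 ⊢
  set B : ℝ := C / (L : ℝ) ^ d + C * (2 * rho m) ^ 3 with hB
  have hB0 : 0 ≤ B := by positivity
  have hsup : ∀ m', m ≤ 2 * m' + 1 → ∀ y : Tor d L, qq hJ n m' y ≤ B := fun m' hm' y => by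
    refine (h1 L m' y).trans (add_le_add le_rfl ?_)
    have := rho_pos m'
    have := rho_half hm'
    gcongr
  obtain ⟨m₁, m₂, rfl, e1, e2⟩ : ∃ m₁ m₂, m = m₁ + m₂ ∧ m ≤ 2 * m₁ + 1 ∧ m ≤ 2 * m₂ + 1 :=
    ⟨m / 2, m - m / 2, by omega, by omega, by omega⟩
  have h4 : qq hJ n (m₁ + m₂) x * r ^ 2 ≤ 2 * B * (D * m₁) + 2 * B * (D * m₂) := by
    have e3 : ∑ y : Tor d L, qq hJ n m₂ (x - y) * (tdist 0 (x - y) : ℝ) ^ 2 ≤ D * m₂ :=
      (Equiv.sum_comp (Equiv.subLeft x)
        fun y => qq hJ n m₂ y * (tdist 0 y : ℝ) ^ 2).trans_le (h2 L m₂)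
    rw [qq_add, Finset.sum_mul]
    refine le_trans ?_ (add_le_add (mul_le_mul_of_nonneg_left (h2 L m₁) (by positivity))
      (mul_le_mul_of_nonneg_left e3 (by positivity)))
    rw [Finset.mul_sum, Finset.mul_sum, ← sum_add_distrib]
    refine sum_le_sum fun y _ => ?_
    have t1 : r ≤ tdist 0 y + tdist 0 (x - y) := by
      rw [hrd, ← tdist_eq]; exact_mod_cast tdist_triangle 0 y x
    have t2 : r ^ 2 ≤ 2 * (tdist 0 y : ℝ) ^ 2 + 2 * (tdist 0 (x - y) : ℝ) ^ 2 := by
      nlinarith [sq_nonneg ((tdist 0 y : ℝ) - tdist 0 (x - y))]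
    have q1 := qq_nonneg hJ n m₁ y
    have q2 := qq_nonneg hJ n m₂ (x - y)
    have q3 := hsup m₁ e1 y
    have q4 := hsup m₂ e2 (x - y)
    calc _ ≤ qq hJ n m₁ y * qq hJ n m₂ (x - y) *
          (2 * (tdist 0 y : ℝ) ^ 2 + 2 * (tdist 0 (x - y) : ℝ) ^ 2) := by gcongr
      _ = 2 * qq hJ n m₂ (x - y) * (qq hJ n m₁ y * (tdist 0 y : ℝ) ^ 2) +
          2 * qq hJ n m₁ y * (qq hJ n m₂ (x - y) * (tdist 0 (x - y) : ℝ) ^ 2) := by ring
      _ ≤ _ := by gcongr
  have hr2 : 0 < r ^ 2 := by positivity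
  rw [← mul_add, ← mul_add, ← Nat.cast_add] at h4
  generalize m₁ + m₂ = m at *
  refine le_of_mul_le_mul_right (h4.trans ?_) hr2
  have e3 : ((C + 16 * C * D) / (L : ℝ) ^ d + (C + 16 * C * D) * (1 / r ^ 2 * rho m)) * r ^ 2 =
      (C + 16 * C * D) * (r ^ 2 / (L : ℝ) ^ d) + (C + 16 * C * D) * rho m := by field_simp
  have e4 : 2 * B * (D * m) =
      2 * (C * D) * (m / (L : ℝ) ^ d) + 16 * (C * D) * (m * rho m ^ 2) * rho m := by
    rw [hB]; ring
  have e5 : (m : ℝ) / (L : ℝ) ^ d ≤ r ^ 2 / (L : ℝ) ^ d := by gcongr; linarith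
  have e6 : m * rho m ^ 2 ≤ 1 := by nlinarith [rho_sq m]
  have e7 : 0 ≤ r ^ 2 / (L : ℝ) ^ d := by positivity
  rw [e3, e4]
  refine add_le_add ?_ (mul_le_mul_of_nonneg_right ?_ hr.le)
  · nlinarith [mul_le_mul_of_nonneg_left e5 hCD, mul_nonneg hCD e7, mul_nonneg hC e7]
  · nlinarith [mul_le_mul_of_nonneg_left e6 hCD]

end Crest.Agent.N337.Free
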